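import Vale.Agent.Lib.P344.Main

open Vale.Agent.Lib.P344 in
/-- Lower bounds for linear circuits computing the discrete Fourier transform in which all
but few gates have bounded scalars. -/
theorem Vale.Agent.Results.P344.FewLargeScalars.result {n : ℕ} (hn : 2 ≤ n) (C : LinearCircuit n)
    (hC : C.Computes (fourier n)) (σ : ℂ →+* ℂ) :
    (∀ (B : Finset (Fin C.gates.length)) (V : Submodule ℂ (Fin n → ℂ)),
        (∀ x ∈ V, ∀ i ∈ B, (C.map σ).gateValue x i = 0) →
        (n : ℝ) ^ (Module.finrank ℂ V) ≤ ∏ i ∈ Bᶜ, (C.gates.get i).weight σ) ∧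
    (∀ B : Finset (Fin C.gates.length),
        (n : ℝ) ^ (n - B.card) ≤ ∏ i ∈ Bᶜ, (C.gates.get i).weight σ) ∧
    (∀ c : ℝ, 2 ≤ c →
        ((n : ℝ) - C.numLarge σ c) * Real.logb 2 n ≤
          C.gates.length * Real.logb 2 (1 + c ^ 2)) :=
  ⟨fun B V hV => general_bound hn hC σ B V hV, fun B => count_bound hn hC σ B,
    fun _ hc => threshold_bound hn hC σ hc⟩
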