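import Vale.Agent.Lib.P344.Normal

open Vale.Agent.Lib.P344 in
/-- Lower bounds for linear circuits computing the discrete Fourier transform in terms of their
large scalars, and the normal form showing that `n` unrestricted scalars are as strong as all. -/
theorem Vale.Agent.Results.P344.ScalarThreshold.result {n : ℕ} (hn : 2 ≤ n) (C : LinearCircuit n)
    (hC : C.Computes (fourier n)) :
    (∀ (σ : ℂ →+* ℂ) (B : Finset (Fin C.gates.length)),
        (n : ℝ) ^ (n - B.card) ≤ ∏ i ∈ Bᶜ, (C.gates.get i).weight σ) ∧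
    (∀ (σ : ℂ →+* ℂ) (c : ℝ), 2 ≤ c →
        ((n : ℝ) - C.numLarge σ c) * Real.logb 2 n ≤
          C.gates.length * Real.logb 2 (1 + c ^ 2)) ∧
    (∀ σ : ℂ →+* ℂ,
        (n : ℝ) ^ n ≤ 10 ^ C.gates.length * ∏ j, ((C.map σ).pathProduct j) ^ 2) ∧
    (∃ C' : LinearCircuit n, C'.Computes (fourier n) ∧
        C'.gates.length ≤ 2 * C.gates.length + n ∧
        C'.numLarge (RingHom.id ℂ) 1 ≤ n) :=
  ⟨fun σ B => count_bound hn hC σ B, fun _ _ hc => threshold_bound hn hC _ hc,
    fun σ => path_bound_fourier hn hC σ,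
    normalForm C, normalForm_computes hC, normalForm_length C, normalForm_numLarge C⟩
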